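import Vale.Agent.N144.MS.Flow
import Vale.Agent.P144U.Fl.Gen

/-!
# The bound on the contour sum with a small cluster of fluxes
-/

namespace Vale.Agent.N144.MS

open Finset Matrix Vale.Agent.P144Z Vale.Agent.P144Z.FM Vale.Agent.P144Z.Geo

section

variable {g : Geo} {L N : ℕ} {q : Par} {u : Cor g.M}

theorem Z_eq (hK : IsEmpty g.K) (hZ : q.Z ≠ 0) (h : g.ConvC L q u N) : ZwC q u g.A 1 =
    (q.Z ^ (2 * g.M ^ 2))⁻¹ * (Real.exp (∑ j ∈ range (N + 1), ∑ U, Mn.ag g (g.csC L q u j U)) *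
      Mn.ag g (g.TL (sc L N) (NormedSpace.exp (∑ X, (g.flowC L q u N).H X)))) := by
  have h1 := LM.Om_eq_TL (sc L N) (by
    rw [I2.noF_exp]
    simp only [map_sum, W.I2.noF_csC]) (W.I2.flow_eqC g u h)
  rw [W.I2.Om_initC g u q hZ] at h1
  have h2 := congrArg (Mn.ag g) h1
  rw [MN.ag_mul, MN.ag_exp] at h2
  simp only [map_sum] at h2
  rw [← h2, map_smul, smul_eq_mul, ← mul_assoc, inv_mul_cancel₀ (pow_ne_zero _ hZ), one_mul,
    map_sum, ZwC]
  refine sum_congr rfl fun n _ => ?_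
  rw [univ_eq_empty (α := g.K), prod_empty, map_smul, Mn.ag_one, smul_eq_mul]
  rfl

theorem last_close (hg : g.OkW) (hu : u.Ok) (hL : 1 ≤ L) {a T K : ℝ}
    (F : FlowN g L q u N a T (1 / 4)) (H : ∀ h ≥ T, g.LastB (sc L N) h K) :
    |Mn.ag g (g.TL (sc L N) (NormedSpace.exp (∑ X, (g.flowC L q u N).H X))) - Zw par0 g.A 1| ≤
      K / 2 := by
  obtain ⟨h, h1, β, hβ, h0, h2⟩ := F.last
  have hl : 1 ≤ sc L N := by have := eight_le_sc hL N; omega
  have hm := W.FD.sum_H_mem (W.Geo.wf_flowC hg hu L q N)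
  have h3 := (MN.pn_exp hl h0 hβ hm h2).1
  have h4 : Real.exp (1 / 4) - 1 ≤ 1 / 2 := by
    have := Real.abs_exp_sub_one_le (x := 1 / 4) (by norm_num)
    have := le_abs_self (Real.exp (1 / 4) - 1)
    norm_num at *
    linarith
  have hK := MN.lastB_nonneg hl h0 (H h h1)
  have h5 := (RN.abs_aug_le_pn le_rfl one_pos hβ _).trans ((H h h1 β hβ _
    (sub_mem (A2.exp_mem_fin _ hm) (one_mem _))).trans
      (mul_le_mul_of_nonneg_left (h3.trans h4) hK))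
  have h6 : g.TL (sc L N) (NormedSpace.exp (∑ X, (g.flowC L q u N).H X)) =
      g.TL (sc L N) (NormedSpace.exp (∑ X, (g.flowC L q u N).H X) - 1) + g.TL (sc L N) 1 := by
    rw [← LM.TL_add, sub_add_cancel]
  rw [h6, LM.TL_one, map_add, map_smul, Mn.ag_one, smul_eq_mul, mul_one]
  change |_ + Zw par0 g.A 1 - _| ≤ _
  rw [add_sub_cancel_right, Mn.ag_apply]
  linarith

end

/-- The sets that are large or that see a point of `Z`. -/
theorem bad_sum {M : ℕ} [NeZero M] {L j J Λ : ℕ} (hL : 4 ≤ L) (hj : j ≤ J) (hM : M ≤ Λ * sc L J)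
    {f : Finset (Tor M) → ℝ} (hf : ∀ X, 0 ≤ f X) {ε : ℝ} (hA : Anch (sc L j) (2 * L) f ε)
    (Z : Finset (Tor M)) (S : Finset (Finset (Tor M)))
    (hS : ∀ U ∈ S, 8 * sc L J / 20 + 1 ≤ stein U ∨
      ∃ z ∈ Z, ∃ x ∈ U, tdist x z ≤ 3 * sc L j + 2 * stein U) :
    ∑ U ∈ S, f U ≤ (96 * (Λ + 1) ^ 2 + 1600 * Z.card) * ε := by
  classical
  have h8 := eight_le_sc (L := L) (by omega) j
  have hl : (0 : ℝ) < sc L j := by positivity
  have hL' : (4 : ℝ) ≤ L := by exact_mod_cast hL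
  have hε := G.anch_nonneg hf hA
  have h1 : ∑ U ∈ S, f U ≤ ∑ U ∈ univ.filter (fun U : Finset (Tor M) =>
      8 * sc L J / 20 + 1 ≤ stein U), f U + ∑ z ∈ Z, ∑ U ∈ univ.filter
        (fun U : Finset (Tor M) => ∃ x ∈ U, tdist x z ≤ 3 * sc L j + 2 * stein U), f U := by
    simp only [sum_filter]
    rw [sum_comm, ← sum_add_distrib]
    have n1 : ∀ (p : Prop) [Decidable p] U, 0 ≤ if p then f U else 0 := fun p _ U => by
      split_ifs
      exacts [hf U, le_rfl]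
    refine le_trans (sum_le_sum fun U hU => ?_) (sum_le_sum_of_subset_of_nonneg (subset_univ S)
      fun U _ _ => add_nonneg (n1 _ U) (sum_nonneg fun z _ => n1 _ U))
    rcases hS U hU with h | ⟨z, hz, h⟩
    · rw [if_pos h]
      exact le_add_of_nonneg_right (sum_nonneg fun z _ => n1 _ U)
    · refine le_add_of_nonneg_of_le (n1 _ U) (le_trans (le_of_eq ?_)
        (single_le_sum (fun z _ => n1 _ U) hz))
      rw [if_pos h]
  have h2 := Anch.large (by omega) (by positivity) hf hA (8 * sc L J / 20 + 1) (by omega)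
  have h3 : ∑ z ∈ Z, ∑ U ∈ univ.filter (fun U : Finset (Tor M) =>
      ∃ x ∈ U, tdist x z ≤ 3 * sc L j + 2 * stein U), f U ≤ Z.card * (1600 * ε) := by
    rw [← nsmul_eq_mul]
    refine sum_le_card_nsmul _ _ _ fun z _ =>
      (Anch.near (by omega) (by linarith) hf hA z (3 * sc L j)).trans (le_of_eq ?_)
    push_cast
    field_simp
    ring
  set x : ℝ := (L : ℝ) ^ (J - j) with hx
  have hx1 : 1 ≤ x := one_le_pow₀ (by linarith)
  have h4 : (M : ℝ) / sc L j + 1 ≤ (Λ + 1) * (4 * x) := by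
    have a1 : M ≤ Λ * L ^ (J - j) * sc L j := by rwa [Mn.sc_eq hj, ← mul_assoc] at hM
    have a2 : (M : ℝ) / sc L j ≤ Λ * x := by
      rw [div_le_iff₀ hl, hx]
      exact_mod_cast a1
    have a3 : (0 : ℝ) ≤ Λ * x := by positivity
    linarith
  have h5 := Mn.gain hL hj (le_refl (8 * sc L J)) 2
  have h6 : Real.exp (-(2 * L * (8 * sc L J / 20 + 1 : ℕ) / sc L j)) ≤
      Real.exp (-(L * (8 * sc L J / 20 + 1 : ℕ) / sc L j)) := by
    rw [Real.exp_le_exp, neg_le_neg_iff, mul_assoc, mul_div_assoc 2]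
    exact le_mul_of_one_le_left (by positivity) one_le_two
  have h7 : (4 : ℝ) ^ 2 * (2 + 1).factorial * (1 / 4 ^ (J - j)) ≤ 96 := by
    have : (1 : ℝ) / 4 ^ (J - j) ≤ 1 := div_le_self zero_le_one (one_le_pow₀ (by norm_num))
    norm_num [Nat.factorial] at this ⊢
    linarith
  have h8 : ((M : ℝ) / sc L j + 1) ^ 2 *
      Real.exp (-(2 * L * (8 * sc L J / 20 + 1 : ℕ) / sc L j)) ≤ 96 * (Λ + 1) ^ 2 := by
    calc _ ≤ ((Λ + 1) * (4 * x)) ^ 2 * Real.exp (-(L * (8 * sc L J / 20 + 1 : ℕ) / sc L j)) := by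
          gcongr
      _ = (4 * x) ^ 2 * Real.exp (-(L * (8 * sc L J / 20 + 1 : ℕ) / sc L j)) * (Λ + 1) ^ 2 := by
          ring
      _ ≤ _ := mul_le_mul_of_nonneg_right (h5.trans h7) (by positivity)
  have h9 := mul_le_mul_of_nonneg_right h8 hε
  linarith

section

variable {Q : Cls} {M : ℕ} [NeZero M] {P H B : Gauge M} {c : Tor M} {L J J' N Λ Λ₁ : ℕ} {Γ : ℝ}
  (D : DomMS Q P H B c L J J' N Λ Λ₁ Γ) {q : Par} {u : Cor M}
include D

/-- The constants of the small sets that see no flux agree. -/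
theorem cs_good (hL : 8 ≤ L) (hq : q.Ok) (hR : 16 * (q.R + 1) ≤ M) (hu : u.Ok) {j : ℕ}
    (hj : j ≤ J') {U : Finset (Tor M)} (h1 : stein U ≤ 8 * sc L J' / 20)
    (h2 : ∀ z, flux B z = -1 → ∀ x ∈ U, 3 * sc L j + 2 * stein U < tdist x z) :
    Mn.ag _ ((gE M (P * H * B) J).csC L q u j U) = Mn.ag _ ((gE M P J').csC L q u j U) := by
  have okA : (gE M (P * H * B) J).OkW := ⟨dom_isW D, fun k => k.elim⟩
  have okH : (gE M (P * H * 1) J).OkW :=
    ⟨by rw [mul_one]; exact Both.isW_mul D.P_ok D.str.sign, fun k => k.elim⟩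
  have okP : (gE M P J').OkW := ⟨Both.isW D.P_ok, fun k => k.elim⟩
  rcases U.eq_empty_or_nonempty with rfl | ⟨x, hx⟩
  · rw [MN.csC_empty okA hu, MN.csC_empty okP hu, map_zero, map_zero]
  have s1 := sc_mono (L := L) (by omega) hj
  have s2 := D.lo
  have h8 := eight_le_sc (L := L) (by omega) j
  have hT : tdist x x + 2 * stein U + 3 * sc L j ≤ 2 * stein U + 3 * sc L j := by
    rw [tdist_self]; omega
  have hM : 4 * (2 * stein U + 3 * sc L j) + 1 ≤ M := by omega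
  obtain ⟨m1, m2, m3⟩ := W.R6.matchC_mul (w := P * H) (B' := 1) (c := x) D.cl.sign
    (fun _ => Or.inl rfl) (by omega) hM fun f hf => by
      rw [flux_one, flux_eq_one D.cl.sign fun h => ?_]
      have := h2 f h x hx
      rw [tdist_comm] at hf
      omega
  have e1 := W.Geo.ag_csC (g := gE M (P * H * B) J) (g' := gE M (P * H * 1) J) (c := x) (c' := x)
    hL okA okH hu hu hq hR hR ⟨hM, hM, m1, m2, fun X _ => m3 u X⟩ j hx hT
  have m4 := Both.eqv (r := 32 * sc L J') (P := P) (B := H)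
    (by rw [← mul_assoc]; exact D.str) (by omega) (by omega) x (2 * stein U + 3 * sc L j)
    (by omega) fun f _ => D.nofl f
  have e2 := W.Geo.ag_csC (g := gE M (P * H * 1) J) (g' := gE M P J') (c := x) (c' := x)
    hL okH okP hu hu hq hR hR ⟨hM, hM, fun f _ => by
      rw [Mn.shf_self]
      change flux P f = flux (P * H * 1) f
      rw [mul_one, dom_fl D (by omega)], by simpa only [Mn.shf_self, mul_one] using m4,
      fun X _ => m3 u X⟩ j hx hT
  rw [Mn.image_shf] at e1 e2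
  exact (e2.trans e1).symm

theorem cs_le (hL : 8 ≤ L) (hq : q.Ok) (hR : 16 * (q.R + 1) ≤ M) (hu : u.Ok) {a T x : ℝ}
    (ha : 0 ≤ a) (F : FlowN (gE M (P * H * B) J) L q u J' a T x)
    (F0 : FlowN (gE M P J') L q u J' a T x) :
    ∑ j ∈ range (J' + 1), ∑ U, Mn.ag _ ((gE M (P * H * B) J).csC L q u j U) ≤
      ∑ j ∈ range (J' + 1), ∑ U, Mn.ag _ ((gE M P J').csC L q u j U) +
        4 * ((96 * (Λ + 1) ^ 2 + 1600 * N) * a) := by
  classical
  set K : ℝ := 96 * (Λ + 1) ^ 2 + 1600 * N with hK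
  have key : ∀ j ∈ range (J' + 1), ∑ U, Mn.ag _ ((gE M (P * H * B) J).csC L q u j U) ≤
      ∑ U, Mn.ag _ ((gE M P J').csC L q u j U) + 2 * (K * a) * (1 / 2) ^ j := by
    intro j hj
    have hj' : j ≤ J' := by have := mem_range.1 hj; omega
    set p : Finset (Tor M) → Prop := fun U => 8 * sc L J' / 20 + 1 ≤ stein U ∨
      ∃ z ∈ univ.filter fun f => flux B f = -1, ∃ x ∈ U, tdist x z ≤ 3 * sc L j + 2 * stein U
      with hp
    have hc : ((univ.filter fun f => flux B f = -1).card : ℝ) ≤ N := by exact_mod_cast D.cnt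
    have b0 : (96 * (Λ + 1) ^ 2 + 1600 * ((univ.filter fun f => flux B f = -1).card : ℝ)) *
        (a / 2 ^ j) ≤ K * a * (1 / 2) ^ j := by
      rw [_root_.one_div_pow, mul_assoc, mul_one_div]
      exact mul_le_mul_of_nonneg_right (by rw [hK]; linarith) (by positivity)
    have b1 := (bad_sum (by omega) hj' D.hi (fun _ => abs_nonneg _) (F.cs j hj') _
      (univ.filter p) fun U hU => (mem_filter.1 hU).2).trans b0
    have b2 := (bad_sum (by omega) hj' D.hi (fun _ => abs_nonneg _) (F0.cs j hj') _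
      (univ.filter p) fun U hU => (mem_filter.1 hU).2).trans b0
    rw [← sub_le_iff_le_add', ← sum_sub_distrib, ← sum_filter_of_ne (p := p) fun U _ hU => by
      by_contra h
      simp only [hp, not_or, not_le, not_exists, not_and, mem_filter, mem_univ, true_and] at h
      exact hU (sub_eq_zero.2 (cs_good D hL hq hR hu hj' (by omega) h.2))]
    refine (sum_le_sum fun U _ => (le_abs_self _).trans (abs_sub _ _)).trans ?_
    rw [sum_add_distrib]
    linarith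
  refine (sum_le_sum key).trans ?_
  rw [sum_add_distrib, ← mul_sum]
  have h1 := sum_geometric_two_le (J' + 1)
  have h2 : 0 ≤ 2 * (K * a) := by positivity
  linarith [mul_le_mul_of_nonneg_left h1 h2]

end

theorem msMain : ∃ ε₀ > (0 : ℝ), ∀ ε > (0 : ℝ), ε ≤ ε₀ → ∃ L₀ : ℕ, ∀ L ≥ L₀,
    ∃ kf : ℕ → ℕ, ∃ σ : ℝ, 0 ≤ σ ∧ ∃ η > (0 : ℝ), ∀ R : ℕ, ∃ δ₀ > (0 : ℝ), ∀ q : Par, q.R = R →
    Crit L q η δ₀ → ∀ N k, kf N ≤ k → MSMain (QU L ε k N) q L σ η := by
  obtain ⟨ε₀, hε₀, H⟩ := flows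
  obtain ⟨Cg, hCg, hg⟩ := LM.lastB_gap
  refine ⟨ε₀, hε₀, fun ε hε hε' => ?_⟩
  obtain ⟨L₀, H⟩ := H ε hε hε'
  refine ⟨L₀, fun L hL => ?_⟩
  obtain ⟨hL64, kf, σ, hσ, η, hη, H⟩ := H L hL
  refine ⟨kf, σ, hσ, η, hη, fun R => ?_⟩
  obtain ⟨δ₀, hδ₀, H⟩ := H R
  refine ⟨δ₀, hδ₀, fun q hR hq N k hk n Λ Λ₁ Γ hΓ => ?_⟩
  obtain ⟨a, ha, J₀, p₀, H⟩ := H q hR hq N k hk Λ Λ₁ (Cg * Γ)
  refine ⟨3 * Real.exp (4 * ((96 * (Λ + 1) ^ 2 + 1600 * n) * a)), by positivity, J₀, p₀,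
    fun J hJ J' hJ' M _ P H' B c u K D hu hw ho hK hZ => ?_⟩
  obtain ⟨hM, F, F0⟩ := H J hJ J' hJ' M P H' B c u n Γ D hu hw ho
  have okA : (gE M (P * H' * B) J).OkW := ⟨dom_isW D, fun k => k.elim⟩
  have okP : (gE M P J').OkW := ⟨Both.isW D.P_ok, fun k => k.elim⟩
  have h8 := eight_le_sc (L := L) (by omega) J'
  have hq0 : q.Z ≠ 0 := by have := hq.ok.Z_lo; positivity
  have t1 := last_close okA hu (by omega) F fun h hh => hg _ okA.sign _ h8 Γ hΓ D.gap h hh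
  have t0 := last_close okP hu (by omega) F0 fun h hh => hg _ okP.sign _ h8 Γ hΓ D.gap0 h hh
  have c1 := Real.exp_le_exp.2 (cs_le D (by omega) hq.ok hM hu ha F F0)
  have z1 : ZwC q u (P * H' * B) 1 = _ := Z_eq (g := gE M (P * H' * B) J) inferInstance hq0 F.conv
  have z0 : ZwC q u P 1 = _ := Z_eq (g := gE M P J') inferInstance hq0 F0.conv
  rw [z1, z0, abs_mul, abs_mul, abs_mul, abs_mul, Real.abs_exp, Real.abs_exp]
  rw [Real.exp_add] at c1
  change |_ - Zw par0 (P * H' * B) 1| ≤ |Zw par0 (P * H' * B) 1| / 2 at t1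
  change |_ - Zw par0 P 1| ≤ |Zw par0 P 1| / 2 at t0
  have a1 := abs_sub_abs_le_abs_sub _ _ |>.trans t1
  have a0 := abs_sub_abs_le_abs_sub _ _ |>.trans ((abs_sub_comm _ _).trans_le t0)
  generalize hT' : |Mn.ag (gE M (P * H' * B) J) _| = T₁ at *
  generalize hT : |Mn.ag (gE M P J') _| = T₀ at *
  have hT0 : 0 ≤ T₀ := hT ▸ abs_nonneg _
  have a2 : T₁ ≤ 3 * K * T₀ := by
    have := mul_le_mul_of_nonneg_left (show |Zw par0 P 1| ≤ 2 * T₀ by linarith) hK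
    linarith
  have hT1 : 0 ≤ T₁ := hT' ▸ abs_nonneg _
  refine (mul_le_mul_of_nonneg_left (mul_le_mul c1 a2 hT1 (by positivity)) (abs_nonneg _)).trans
    (le_of_eq ?_)
  ring

theorem genMS : GenMS := by
  obtain ⟨ε₀, hε₀, H⟩ := msMain
  obtain ⟨C₂, hC₂, h⟩ := cor_reg
  refine ⟨ε₀, hε₀, fun ε hε hε' => ?_⟩
  obtain ⟨L₀, H⟩ := H ε hε hε'
  refine ⟨L₀, fun L hL => ?_⟩
  obtain ⟨kf, σ, hσ, γ, hγ, H⟩ := H L hL
  have e1 := W.R5.one_le_eR hσ 1
  refine ⟨kf, γ / (4 * (W.R5.eR σ 1 * C₂)), by positivity, fun R => ?_⟩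
  obtain ⟨δ₀, hδ₀, H⟩ := H R
  obtain ⟨C₃, hC₃, h⟩ := h R
  have e2 := W.R5.one_le_eR hσ (2 * R + 2)
  refine ⟨min δ₀ (γ / (4 * (W.R5.eR σ (2 * R + 2) * C₃))), by positivity,
    fun q hR hq N k hk => ⟨σ, γ / 2, γ / 2, hσ, half_pos hγ, fun M _ R' => ?_, ?_⟩⟩
  · obtain ⟨k1, k2, k3⟩ := h M R' q _ _ hR hq.ok hq.x (hq.small.trans (min_le_right _ _))
    refine ⟨k1, k2, GU.wt_mono (GU.wt_sm hσ k3) (le_of_eq ?_)⟩
    rw [hR]
    field_simp
    ring
  · rw [add_halves]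
    exact H q hR (hq.mono (div_le_self hγ.le (by nlinarith)) (min_le_left _ _)) N k hk

end Vale.Agent.N144.MS
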