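import Vale.Agent.N144.DefsL
import Vale.Agent.P144D.FD.Both

/-!
# The boundary estimates only depend on the field near the boundary
-/

namespace Vale.Agent.N144.MS

open Finset Matrix Vale.Agent.P144Z

section

variable {M : ℕ} [NeZero M] {A A' : Gauge M}

theorem shr_congr {ℓ ℓ' : ℕ} {z : Tor M} {κ : ℝ} (hl : ℓ ≤ ℓ')
    (h : ∀ e : Tor M × Fin 2, tdist e.1 z ≤ 2 * ℓ' + 4 → A e = A' e) (H : RN.Shr A' ℓ ℓ' z κ) :
    RN.Shr A ℓ ℓ' z κ := fun u => by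
  rw [W.hsq_congrA (A' := A') (r := 2 * ℓ) (fun e he => h e (by omega)),
    W.hsq_congrA (A' := A') (r := 2 * ℓ') h]
  exact H u

theorem rkA_congr {ℓ ℓ' r : ℕ} {y : Tor M} {c η : ℝ} (hr : r ≤ ℓ')
    (h : ∀ e : Tor M × Fin 2, tdist e.1 y ≤ ℓ' + 4 → A e = A' e) (H : RkA A' ℓ ℓ' r c η y) :
    RkA A ℓ ℓ' r c η y := by
  obtain ⟨u, hu⟩ := H
  refine ⟨u, fun w => ?_⟩
  simp only [W.hsq_congrA (A' := A') (z := y) (r := r) (fun e he => h e (by omega)),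
    W.hsq_congrA (A' := A') (z := y) (r := ℓ') h]
  exact hu w

theorem flux_near {f z : Tor M} {r : ℕ} (h : ∀ e : Tor M × Fin 2, tdist e.1 z ≤ r + 1 → A e = 1)
    (hf : tdist f z ≤ r) : flux A f = 1 := by
  have h1 : ∀ i, tdist (f + uv M i) z ≤ r + 1 := fun i => (E3.near_add i).trans (by omega)
  rw [flux, h (f, 0) (by dsimp only; omega), h (f + uv M 0, 1) (h1 0), h (f + uv M 1, 0) (h1 1),
    h (f, 1) (by dsimp only; omega)]
  norm_num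

/-- The field `A` is `A'` far from `c`, and has no boundary near `c`. -/
structure Far (A A' : Gauge M) (c : Tor M) (R S : ℕ) : Prop where
  out : ∀ e : Tor M × Fin 2, R < tdist e.1 c → A e = A' e
  unit : ∀ f, tdist f c ≤ S → |flux A f| = 1

variable {c₀ : Tor M} {R S : ℕ}

theorem Far.agree (H : Far A A' c₀ R S) {f z : Tor M} {d T : ℕ} (hf : |flux A f| ≠ 1)
    (hd : tdist f z ≤ d) (hS : R + T + d ≤ S) (e : Tor M × Fin 2) (he : tdist e.1 z ≤ T) :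
    A e = A' e := by
  refine H.out e ?_
  have h1 : S < tdist f c₀ := not_le.1 fun h => hf (H.unit f h)
  have h2 := tdist_triangle f z c₀
  have h3 := tdist_triangle z e.1 c₀
  rw [tdist_comm z e.1] at h3
  omega

theorem Far.fl (H : Far A A' c₀ R S) (hS : R + 1 ≤ S) {f : Tor M} (hf : |flux A f| ≠ 1) :
    |flux A' f| ≠ 1 := by
  have h0 : tdist f f ≤ 0 := by rw [tdist_self]
  have h := H.agree (T := 1) hf h0 (by omega)
  have h1 : tdist f f ≤ 1 := by omega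
  rwa [flux, ← h (f, 0) h1, ← h (f, 1) h1, ← h (f + uv M 0, 1) (tdist_uv f 0),
    ← h (f + uv M 1, 0) (tdist_uv f 1)]

/-- The covering of the boundary near `z`. -/
def Cv (A : Gauge M) (ℓ ℓ' : ℕ) (c κ s : ℝ) (n₂ : ℕ) (z : Tor M) : Prop :=
  ∃ (Z₁ : Finset (Tor M × ℝ × ℝ)) (Z₂ : Finset (Tor M)), Z₂.card ≤ n₂ ∧
    (∀ y ∈ Z₁, 0 < y.2.2 ∧ y.2.2 ≤ y.2.1 ∧ y.2.1 ≤ c ∧
      RkA A ℓ ℓ' ((8 + 3) * ℓ) y.2.1 y.2.2 y.1) ∧ ∑ y ∈ Z₁, y.2.1 * y.2.2 ≤ s ∧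
    ∀ x, tdist x z ≤ 3 * ℓ' → (∃ f, tdist f x ≤ 6 * ℓ ∧ |flux A f| ≠ 1) →
      RN.Shr A ℓ ℓ' x κ ∨ (∃ y ∈ Z₁, tdist x y.1 ≤ 8 * ℓ) ∨ ∃ y ∈ Z₂, tdist x y ≤ 8 * ℓ

variable {ℓ ℓ' n₂ : ℕ} {c κ s : ℝ}

theorem Far.cv (H : Far A A' c₀ R S) (hl : 14 * ℓ ≤ ℓ') (hS : R + 3 * ℓ' + 4 ≤ S) {z : Tor M}
    (h : Cv A' ℓ ℓ' c κ s n₂ z) : Cv A ℓ ℓ' c κ s n₂ z := by
  classical
  obtain ⟨Z₁, Z₂, h1, h2, h3, h4⟩ := h
  refine ⟨Z₁.filter fun y => ∃ f, tdist f y.1 ≤ 14 * ℓ ∧ |flux A f| ≠ 1, Z₂, h1, fun y hy => ?_,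
    le_trans (sum_le_sum_of_subset_of_nonneg (filter_subset _ _) fun y hy _ => ?_) h3,
    fun x hx ⟨f, hf, hf'⟩ => ?_⟩
  · obtain ⟨hy, f, hf, hf'⟩ := mem_filter.1 hy
    obtain ⟨a1, a2, a3, a4⟩ := h2 y hy
    exact ⟨a1, a2, a3, rkA_congr (by omega) (H.agree hf' hf (by omega)) a4⟩
  · obtain ⟨a1, a2, -⟩ := h2 y hy
    exact mul_nonneg (a1.le.trans a2) a1.le
  · rcases h4 x hx ⟨f, hf, H.fl (by omega) hf'⟩ with h | ⟨y, hy, h⟩ | h
    · exact Or.inl (shr_congr (by omega) (H.agree hf' hf (by omega)) h)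
    · have := tdist_triangle f x y.1
      exact Or.inr (Or.inl ⟨y, mem_filter.2 ⟨hy, f, by omega, hf'⟩, h⟩)
    · exact Or.inr (Or.inr h)

theorem Far.sch (H : Far A A' c₀ R S) (hl : ℓ ≤ ℓ') (hS : R + 3 * ℓ' + 4 ≤ S)
    (h : ∀ z, (∃ f, tdist f z ≤ ℓ' ∧ |flux A' f| ≠ 1) → RN.Shr A' ℓ ℓ' z κ) (z : Tor M)
    (hz : ∃ f, tdist f z ≤ ℓ' ∧ |flux A f| ≠ 1) : RN.Shr A ℓ ℓ' z κ := by
  obtain ⟨f, hf, hf'⟩ := hz
  exact shr_congr hl (H.agree hf' hf (by omega)) (h z ⟨f, hf, H.fl (by omega) hf'⟩)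

theorem Far.qu (H : Far A A' c₀ R S) {L k N J J' : ℕ} {ε : ℝ} (hL : 14 ≤ L) (hk : k ≤ J')
    (hJ : J ≤ J') (hS : R + 3 * sc L J' + 4 ≤ S) (h : QU L ε k N M A' J') : QU L ε k N M A J := by
  obtain ⟨Tp, h1, ⟨c₁, a1, a2, a3⟩, c₂, b1, b2, b3⟩ := h
  have h2 : ∀ j < J', L * sc L j ≤ sc L J' := fun j hj => by
    rw [← FM.sc_succ]
    exact FM.sc_mono (by omega) hj
  have h3 : ∀ j, 14 * sc L j ≤ L * sc L j := fun j => Nat.mul_le_mul_right _ hL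
  have h4 := FM.sc_mono (L := L) (by omega) hJ
  refine ⟨Tp, fun p hp p' hp' e => by have := h1 p hp p' hp' e; omega, ⟨c₁, a1, a2, fun j hj => ?_⟩,
    c₂, b1, b2, fun j hj hj' => ?_⟩
  · obtain ⟨κ, s, n₂, d1, d2, d3, d4, d5⟩ := a3 j hj
    have := h2 j (by omega)
    have := h3 j
    exact ⟨κ, s, n₂, d1, d2, d3, d4, H.sch (by omega) (by omega) d5.sch,
      fun z => H.cv (by omega) (by omega) (d5.cov z)⟩
  · obtain ⟨κ, s, n₂, d1, d2, d3, d4, d5⟩ := b3 j hj (by omega)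
    have := h2 j (by omega)
    have := h3 j
    exact ⟨κ, s, n₂, d1, d2, d3, d4, H.sch (by omega) (by omega) d5.sch,
      fun z hz => H.cv (by omega) (by omega) (d5.cov z hz)⟩

end

/-- The change of scale far above the size of the cluster. -/
theorem shr_late {κ : ℝ} (hκ : 0 < κ) : ∃ L₀ : ℕ, ∀ L ≥ L₀, ∀ Λ : ℕ, ∃ p : ℕ, ∀ (M : ℕ) [NeZero M]
    (A B : Gauge M) (c : Tor M) (R r ℓ : ℕ), IsW A → Cluster B 1 c R r → 256 ≤ r → r ≤ R →
    R ≤ Λ * r → p * R ≤ ℓ → R ≤ ℓ → 16 * (L * ℓ) ≤ M →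
    (∀ e : Tor M × Fin 2, tdist e.1 c ≤ 5 * (L * ℓ) → A e = B e) →
    (∀ f, flux A f = -1 → tdist f c ≤ R) →
    (∀ z, (∃ f, tdist f z ≤ L * ℓ ∧ |flux A f| ≠ 1) → RN.Shr A ℓ (L * ℓ) z κ) →
    ∀ z, RN.Shr A ℓ (L * ℓ) z κ := by
  obtain ⟨C₀, hC₀, h0⟩ := Geo.sch_late
  obtain ⟨C₁, hC₁, h1⟩ := W.RN.shr_flat
  refine ⟨max (max ⌈(C₀ / κ) ^ 4⌉₊ ⌈C₁ / κ ^ 2⌉₊) 64, fun L hL Λ => ?_⟩
  have l1 := Nat.ceil_le.1 (le_of_max_le_left (le_of_max_le_left hL))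
  have l2 := Nat.ceil_le.1 (le_of_max_le_right (le_of_max_le_left hL))
  have l3 : 64 ≤ L := le_of_max_le_right hL
  have l0 : (0 : ℝ) < L := by positivity
  obtain ⟨p, h0⟩ := h0 Λ L l3
  refine ⟨p, fun M _ A B c R r ℓ hA hB r1 r2 r3 p1 p2 hM hAB hf hb z => ?_⟩
  have h64 : 64 * ℓ ≤ L * ℓ := Nat.mul_le_mul_right _ l3
  by_cases h2 : ∃ f, tdist f z ≤ L * ℓ ∧ |flux A f| ≠ 1
  · exact hb z h2
  push Not at h2
  by_cases h3 : ∃ f, tdist f z ≤ L * ℓ ∧ flux A f = -1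
  · obtain ⟨f, f1, f2⟩ := h3
    have f3 := hf f f2
    refine shr_congr (A' := B) (by omega) (fun e he => hAB e ?_) (W.R4a.shr_mono
      (h0 (geoA M B) 1 c R r hB r1 r2 r3 ℓ p1 p2 (by change _ ≤ M; omega) z) (by positivity) ?_)
    · have a1 := tdist_triangle e.1 z c
      have a2 := tdist_triangle z f c
      rw [tdist_comm z f] at a2
      omega
    · rw [mul_comm, ← le_div_iff₀ (by linarith)]
      refine Real.sqrt_le_iff.2 ⟨by positivity, Real.sqrt_le_iff.2 ⟨by positivity, ?_⟩⟩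
      rw [inv_le_comm₀ l0 (by positivity), ← pow_mul, ← inv_pow, inv_div]
      exact l1
  · push Not at h3
    refine h1 M A hA z ℓ (L * ℓ) (by omega) (by omega) (by omega) (fun f hf =>
      ((abs_eq zero_le_one).1 (h2 f hf)).resolve_right (h3 f hf)) κ ?_
    rw [div_le_iff₀ (by positivity)] at l2
    push_cast
    have := mul_le_mul_of_nonneg_right l2 (Nat.cast_nonneg (α := ℝ) ℓ)
    linarith

section

variable {Q : Cls} {M : ℕ} [NeZero M] {P H B : Gauge M} {c : Tor M} {L J J' N Λ Λ₁ : ℕ} {Γ : ℝ}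
  (D : DomMS Q P H B c L J J' N Λ Λ₁ Γ)
include D

theorem dom_sign : IsSign (H * B) := fun e => by
  rcases D.str.sign e with h | h <;> rcases D.cl.sign e with h' | h' <;> simp [h, h']

theorem dom_isW : IsW (P * H * B) := by
  rw [mul_assoc]
  exact Both.isW_mul D.P_ok (dom_sign D)

theorem dom_flux0 (hL : 1 ≤ L) {f : Tor M} (hf : tdist f c ≤ 63 * sc L J') :
    flux (P * H) f = 1 := by
  have := FM.eight_le_sc hL J'
  refine flux_near (fun e he => ?_) hf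
  obtain ⟨h1, h2⟩ := D.one e (by omega)
  rw [Pi.mul_apply, h1, h2, mul_one]

theorem dom_fluxB {f : Tor M} (hf : flux (P * H * B) f = -1) : flux B f = -1 := by
  by_contra h
  rw [Both.flux_mul, FM.flux_eq_one D.cl.sign h, mul_one] at hf
  exact D.nofl f hf

theorem dom_far (hL : 1 ≤ L) : Far (P * H * B) (P * H) c (Λ₁ * sc L J) (63 * sc L J') := by
  refine ⟨fun e he => by rw [Pi.mul_apply, D.cl.out e he, Pi.one_apply, mul_one], fun f hf => ?_⟩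
  rw [Both.flux_mul, dom_flux0 D hL hf, one_mul]
  by_cases h : flux B f = -1
  · rw [h, abs_neg, abs_one]
  · rw [FM.flux_eq_one D.cl.sign h, abs_one]

theorem dom_near (e : Tor M × Fin 2) (he : tdist e.1 c ≤ 64 * sc L J') : (P * H * B) e = B e := by
  obtain ⟨h1, h2⟩ := D.one e he
  rw [Pi.mul_apply, Pi.mul_apply, h1, h2, one_mul, one_mul]

theorem dom_ff (hL : 1 ≤ L) (hJ : J ≤ J') (hΛ : Λ₁ * sc L J ≤ sc L J') (f : Tor M)
    (hf : flux (P * H * B) f = -1) (f' : Tor M) (hne : f' ≠ f) (hd : tdist f' f ≤ 8 * sc L J) :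
    flux (P * H * B) f' = 1 := by
  have h1 := dom_fluxB D hf
  have h2 := D.cl.near f h1
  have h3 := tdist_triangle f' f c
  have h4 := FM.sc_mono hL hJ
  rw [Both.flux_mul, dom_flux0 D hL (by omega), one_mul]
  refine FM.flux_eq_one D.cl.sign fun h => ?_
  have := D.cl.sep f' f h h1 hne
  omega

theorem dom_fl (hL : 1 ≤ L) (f : Tor M) : flux P f = flux (P * H) f := by
  have := FM.eight_le_sc hL J'
  rw [Both.fl D.P_ok D.str (by omega) f, if_neg (D.nofl f)]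

theorem dom_off {u : Cor M} (hu : u.Off P) : u.Off (P * H * B) := fun X hX => hu X fun x hx => by
  have h1 := hX x hx
  have h2 := Both.flux_nonneg D.P_ok x
  rw [mul_assoc, Both.flux_mul] at h1
  by_cases h : flux (H * B) x = -1
  · rw [h] at h1
    linarith
  · rwa [FM.flux_eq_one (dom_sign D) h, mul_one] at h1

theorem dom_nofl (f : Tor M) : flux P f ≠ -1 := fun h => by
  linarith [Both.flux_nonneg D.P_ok f]

end

end Vale.Agent.N144.MS
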