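import Vale.Agent.N144.MS.Step
import Vale.Agent.N144.MS.Tr
import Vale.Agent.P144U.Rg.Early
import Vale.Agent.P144U.Rg.Wt
import Vale.Agent.P144D.MN.Last

/-!
# The flow above the distance of the fluxes
-/

namespace Vale.Agent.N144.MS

open Finset Matrix Vale.Agent.P144Z Vale.Agent.P144Z.FM Vale.Agent.P144Z.W.Geo.R8

/-- The torus without sources. -/
abbrev gE (M : ℕ) [NeZero M] (A : Gauge M) (J : ℕ) : Geo :=
  { M := M, A := A, K := Empty, src := Empty.elim, J := J }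

/-- The bounds on the flow up to the step `N`. -/
structure FlowN (g : Geo) (L : ℕ) (q : Par) (u : Cor g.M) (N : ℕ) (a T x : ℝ) : Prop where
  conv : g.ConvC L q u N
  cs : ∀ j ≤ N, Anch (sc L j) (2 * L) (fun U => |Mn.ag g (g.csC L q u j U)|) (a / 2 ^ j)
  last : ∃ h ≥ T, ∃ β > 0, 0 < h ∧ g.pn (sc L N) h β univ (∑ X, (g.flowC L q u N).H X) ≤ x

theorem ag_le {g : Geo} {ℓ : ℕ} {h β : ℝ} (hℓ : 1 ≤ ℓ) (hh : 0 < h) (hβ : 0 < β)
    (U : Finset g.P) (F : g.E) : |Mn.ag g (g.noF F)| ≤ g.pn ℓ h β U F := by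
  rw [Mn.ag_apply, I2.val_noF, Vale.Agent.P144Z.aug_map]
  exact RN.abs_aug_le_pn hℓ hh hβ F

theorem flowN_of {g : Geo} {L N Λ : ℕ} {q : Par} {u : Cor g.M} {h h' : ℕ → ℝ}
    {δ a b C Ω T x : ℝ} {ω : ℕ → g.P → ℝ} (hK : IsEmpty g.K) (hg : g.OkW) (hL : 1 ≤ L)
    (hu : u.Ok) (hδ : 0 < δ) (hr : W.FD.Rad L h) (E : W.FD.EFull g L q u h δ a) (ha : 0 ≤ a)
    (hb : 0 ≤ b) (hC : 1 ≤ C) (hΩ : 1 ≤ Ω) (hN : g.J ≤ N) (e : h' g.J = h g.J)
    (hpos : ∀ j, 0 < h' j) (hω : ∀ ℓ z, 1 ≤ ω ℓ z ∧ ω ℓ z ≤ Ω)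
    (hS : ∀ j, g.J ≤ j → j < N → StepM g L (sc L j) j (h' j) (h' (j + 1))
      (δ * sc L g.J / h g.J ^ 2) C (ω (sc L j)) (ω (L * sc L j)))
    (hbf : ∀ j, g.J ≤ j → j ≤ N →
      Anch (sc L j) L (g.bf (sc L j) (h' j) (g.flowC L q u j)) (b / 2 ^ j / 2 ^ j))
    (hT : 4 * (C * (b + ((a + 1) * Ω) ^ 2)) ≤ 2 ^ g.J) (hM : g.M ≤ Λ * sc L N) (hT' : T ≤ h' N)
    (hx : (32 * Λ + 1) ^ 2 * ((a + 1) * Ω + b) ≤ x * 2 ^ N) :
    FlowN g L q u N (2 * a + 2 * (C * ((a + 1) * Ω + b))) T x := by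
  set β := δ * sc L g.J / h g.J ^ 2 with hβ
  have hβ0 : 0 < β := beta_pos hL hδ (hr.pos hL _) _
  have hz : ∀ z : g.K → ℝ, z = 0 := fun z => funext fun k => isEmptyElim k
  have hwf := W.Geo.wf_flowC hg hu L q
  have hl : ∀ j, 1 ≤ sc L j := fun j => by have := eight_le_sc hL j; omega
  set y := (a + 1) * Ω with hy
  have hy1 : 1 ≤ y := one_le_mul_of_one_le_of_one_le (by linarith) hΩ
  have hCb : 0 ≤ C * b := by positivity
  have hCy : C * y ≤ C * y ^ 2 := mul_le_mul_of_nonneg_left (by nlinarith) (by linarith)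
  have hCy1 : 1 ≤ C * y := one_le_mul_of_one_le_of_one_le hC hy1
  have ht : ∀ j, g.J ≤ j → 4 * (C * (b + y ^ 2)) ≤ 2 ^ j := fun j hj =>
    hT.trans (pow_le_pow_right₀ one_le_two hj)
  have step : ∀ j, g.J ≤ j → j < N → AnchW (sc L j) L (g.df (sc L j) (h' j) β (g.flowC L q u j)
      (g.srcSt 0)) (ω (sc L j)) ((a + 1) / 2 ^ j) → _ := fun j hj hj' hd =>
    hS j hj hj' _ (hwf j) _ ((a + 1) / 2 ^ j * Ω) _ (by positivity) (by
      rw [div_mul_eq_mul_div, ← hy, ← mul_div_assoc, div_le_one (by positivity)]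
      linarith [ht j hj]) (by
      refine (mul_le_mul_of_nonneg_left (div_pow_le (by positivity) j) (by linarith)).trans ?_
      rw [← mul_div_assoc, div_le_one (by positivity)]
      linarith [ht j hj]) hd (RgU.anchW_anch hd (by positivity) fun z => (hω _ z).2)
      (hbf j hj hj'.le)
  have key : ∀ j, g.J ≤ j → j ≤ N → AnchW (sc L j) L (g.df (sc L j) (h' j) β (g.flowC L q u j)
      (g.srcSt 0)) (ω (sc L j)) ((a + 1) / 2 ^ j) := by
    intro j hj
    induction j, hj using Nat.le_induction with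
    | base =>
      intro _
      have h1 := E.df g.J le_rfl
      rw [hz (g.flowC L q u g.J).z, ← hβ, ← e] at h1
      exact RgU.anch_anchW (anch_le h1 (by gcongr; linarith)) (by positivity) fun z => (hω _ z).1
    | succ j hj ih =>
      intro hN'
      have s2 := (step j hj (by omega) (ih (by omega))).2.1
      rw [← W.FD.flowC_succ, ← sc_succ] at s2
      refine RgU.anchW_le s2 ?_ fun z => (hω _ z).1
      have h1 := ht j hj
      have h2 : (0 : ℝ) < 2 ^ j := by positivity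
      have h3 : C * (b / 2 ^ j / 2 ^ j + ((a + 1) / 2 ^ j * Ω) ^ 2) =
          C * (b + y ^ 2) / 2 ^ j / 2 ^ j := by rw [hy]; field_simp
      have h4 : C * (b + y ^ 2) / 2 ^ j ≤ (a + 1) / 4 := by
        rw [div_le_iff₀ h2]
        nlinarith
      have h5 := div_le_div_of_nonneg_right h4 h2.le
      have h6 : (a + 1) / 2 ^ (j + 1) = (a + 1) / 2 ^ j / 4 + (a + 1) / 4 / 2 ^ j := by
        rw [pow_succ]; field_simp; norm_num
      linarith
  have hCyb : 0 ≤ C * (y + b) := by positivity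
  refine ⟨⟨E.init, fun j hj => ?_⟩, fun j hj => ?_, h' N, hT', β, hβ0, hpos N, ?_⟩
  · rcases lt_or_ge j g.J with h1 | h1
    · exact E.ex j h1
    · rw [sc_succ]
      exact (step j h1 hj (key j h1 hj.le)).1
  · cases j with
    | zero =>
      rw [sc_zero]
      refine anch_mono E.W0 (fun U => ?_) (by rw [pow_zero, div_one]; linarith)
      rw [Wsrc_eq _ fun ⟨k, _⟩ => isEmptyElim k, sub_zero]
      have := hr.pos hL 0
      exact ag_le (by norm_num) this (by positivity) U _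
    | succ j =>
      have h2 : (0 : ℝ) < 2 ^ j := by positivity
      rcases lt_or_ge j g.J with h1 | h1
      · refine anch_mono (E.intg j h1) (fun U => ?_) ?_
        · rw [hz (g.flowC L q u j).z, show g.intg (sc L j) (L * sc L j) (g.srcSt 0) U = 0 from
            Geo.Cl_zero _ U, sub_zero, W.FD.csC_succ]
          exact ag_le (hl j) (half_pos (hr.pos hL j)) (beta_pos hL hδ (hr.pos hL j) j) U _
        · rw [pow_succ, div_le_div_iff₀ h2 (by positivity)]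
          nlinarith
      · have s3 := (step j h1 hj (key j h1 (by omega))).2.2
        rw [← sc_succ] at s3
        refine anch_mono s3 (fun U => ?_) ?_
        · rw [W.FD.csC_succ, sc_succ]
          exact ag_le (hl j) (half_pos (hpos j)) hβ0 U _
        · have h3 := div_pow_le (div_nonneg hb h2.le) j
          have h4 : C * ((a + 1) / 2 ^ j * Ω + b / 2 ^ j) = 2 * (C * (y + b)) / 2 ^ (j + 1) := by
            rw [hy, pow_succ]; field_simp
          refine (mul_le_mul_of_nonneg_left (add_le_add le_rfl h3) (by linarith)).trans ?_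
          rw [h4]
          gcongr
          linarith
  · have h1 := W.FD.pn_sum_H (hl N) (hpos N) hβ0 hM (Nat.cast_nonneg L) (hwf N)
      (RgU.anchW_anch (key N hN le_rfl) (by positivity) fun z => (hω _ z).2) (hbf N hN le_rfl)
    simp only [Pi.zero_apply, zero_smul, sum_const_zero, sub_zero] at h1
    refine h1.trans ?_
    have h2 : (0 : ℝ) < 2 ^ N := by positivity
    have h3 := div_pow_le (div_nonneg hb h2.le) N
    refine (mul_le_mul_of_nonneg_left (add_le_add le_rfl h3) (by positivity)).trans ?_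
    rw [div_mul_eq_mul_div, ← add_div, ← mul_div_assoc, div_le_iff₀ h2]
    exact hx

theorem le_sc {L p j j' : ℕ} (hL : 2 ≤ L) (h : j + p ≤ j') : p * sc L j ≤ sc L j' := by
  have h1 : p ≤ L ^ p := (Nat.lt_pow_self (by omega : 1 < L)).le
  calc p * sc L j ≤ L ^ p * sc L j := Nat.mul_le_mul_right _ h1
    _ = sc L (j + p) := by unfold sc; ring
    _ ≤ sc L j' := sc_mono (by omega) h

set_option maxHeartbeats 800000 in
theorem flows : ∃ ε₀ > (0 : ℝ), ∀ ε > (0 : ℝ), ε ≤ ε₀ → ∃ L₀ : ℕ, ∀ L ≥ L₀, 64 ≤ L ∧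
    ∃ kf : ℕ → ℕ, ∃ σ : ℝ, 0 ≤ σ ∧ ∃ η > (0 : ℝ), ∀ R : ℕ, ∃ δ₀ > (0 : ℝ), ∀ q : Par, q.R = R →
    Crit L q η δ₀ → ∀ N k, kf N ≤ k → ∀ (Λ Λ₁ : ℕ) (T : ℝ), ∃ a : ℝ, 0 ≤ a ∧ ∃ J₀ p₀ : ℕ,
    ∀ J ≥ J₀, ∀ J' ≥ J + p₀, ∀ (M : ℕ) [NeZero M] (P H B : Gauge M) (c : Tor M) (u : Cor M)
    (n : ℕ) (Γ : ℝ), DomMS (QU L ε k N) P H B c L J J' n Λ Λ₁ Γ → u.Ok → u.Wt σ η → u.Off P →
      16 * (q.R + 1) ≤ M ∧ FlowN (gE M (P * H * B) J) L q u J' a T (1 / 4) ∧
        FlowN (gE M P J') L q u J' a T (1 / 4) := by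
  obtain ⟨ε₁, hε₁, hE⟩ := engT_of initU wtS
  obtain ⟨L₁, hS⟩ := stepMS
  obtain ⟨Cb, hCb, hbf⟩ := W.Geo.ag_bfC
  have hw : 1 ≤ Real.exp 6 := Real.one_le_exp (by norm_num)
  set w := Real.exp 6 with hwd
  set κ := 1 / (300 * w) with hκ
  have hκ0 : 0 < κ := by positivity
  have hκ1 : κ * (300 * w) = 1 := by rw [hκ]; field_simp
  have hκ2 : 300 * κ ≤ 1 := by nlinarith
  obtain ⟨L₂, hl⟩ := shr_late hκ0
  refine ⟨min ε₁ (min (κ ^ 2) (1 / (2560000000 * w))), by positivity, fun ε hε hε' => ?_⟩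
  obtain ⟨e1, e0⟩ := le_min_iff.1 hε'
  obtain ⟨e2, e3⟩ := le_min_iff.1 e0
  have e4 : 169 * (8 * κ ^ 2) + 10000 * (4000 * ε) ≤ 1 / (32 * w) := by
    rw [le_div_iff₀ (by positivity)] at e3 ⊢
    nlinarith
  obtain ⟨L₃, hE⟩ := hE ε hε e1
  refine ⟨max (max L₁ L₂) (max L₃ 64), fun L hL => ?_⟩
  simp only [ge_iff_le, max_le_iff] at hL
  obtain ⟨⟨l1, l2⟩, l3, l4⟩ := hL
  obtain ⟨C, hC, hS⟩ := hS L l1
  obtain ⟨kf, δ, hδ, A, hA, σ, hσ, η, hη, hE⟩ := hE L l3
  have hL1 : 1 ≤ L := by omega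
  have hL' : (64 : ℝ) ≤ L := by exact_mod_cast l4
  refine ⟨l4, kf 0, σ, hσ, η, hη, fun R => ?_⟩
  obtain ⟨δ₀, hδ₀, hE⟩ := hE η hη le_rfl R
  refine ⟨δ₀, hδ₀, fun q hR hq N k hk Λ Λ₁ T => ?_⟩
  replace hE := hE q hR hq 0 _ ⟨N, k, hk, rfl⟩
  obtain ⟨Ω, hΩ, hW⟩ := wtS L N (by omega)
  obtain ⟨p, hl⟩ := hl L l2 (Λ₁ + 16)
  set p₁ := (p + 1) * (Λ₁ + 16) with hp₁
  set ρ := 1 / (80 * L * w) with hρ
  have hρ0 : 0 < ρ := by positivity
  have hρ1 : ρ * (80 * L * w) = 1 := by rw [hρ]; field_simp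
  have hρ2 : 80 * (ρ * L) ≤ 1 := by nlinarith [mul_pos hρ0 (by linarith : (0 : ℝ) < L)]
  have hρ3 : 4 * ρ ≤ 1 := by nlinarith
  have hρ4 : 25 * (L : ℝ) ^ 2 * (8 * ρ ^ 2) ≤ 1 / (32 * w) := by
    rw [le_div_iff₀ (by positivity)]
    nlinarith [mul_pos hρ0 (by linarith : (0 : ℝ) < L)]
  have hγ0 : 0 < ρ / L := by positivity
  have hγ1 : ρ / L ≤ 1 := (div_le_self hρ0.le (by linarith)).trans (by linarith)
  obtain ⟨p₂, hp₂⟩ := pow_unbounded_of_one_lt (max 1 T / (ρ / L) ^ p₁) (one_lt_two (α := ℝ))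
  rw [div_lt_iff₀ (by positivity)] at hp₂
  have g1 : 1 ≤ 2 ^ p₂ * (ρ / L) ^ p₁ := (le_max_left _ _).trans hp₂.le
  have g2 : T ≤ 2 ^ p₂ * (ρ / L) ^ p₁ := (le_max_right _ _).trans hp₂.le
  have hL2 : (1 : ℝ) ≤ (L : ℝ) ^ 2 := one_le_pow₀ (by linarith)
  set b := Cb * Real.exp L * η with hbd
  have hb0 : 0 ≤ b := by positivity
  have ha0 : 0 ≤ A * η := by positivity
  obtain ⟨J₁, hJ₁⟩ := pow_unbounded_of_one_lt (max (4 * (C * (b + ((A * η + 1) * Ω) ^ 2)))
    (4 * ((32 * Λ + 1) ^ 2 * ((A * η + 1) * Ω + b)))) (one_lt_two (α := ℝ))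
  refine ⟨2 * (A * η) + 2 * (C * ((A * η + 1) * Ω + b)), by positivity,
    max (max p₂ k) (max J₁ (q.R + 1)), p₁, fun J hJ J' hJ' M _ P H B c u n Γ D hu hwt hoff => ?_⟩
  simp only [ge_iff_le, max_le_iff] at hJ
  obtain ⟨⟨j1, j2⟩, j3, j4⟩ := hJ
  have hJJ : J ≤ J' := by omega
  have t1 : ∀ j, J ≤ j → 4 * (C * (b + ((A * η + 1) * Ω) ^ 2)) ≤ 2 ^ j := fun j hj =>
    ((le_max_left _ _).trans hJ₁.le).trans (pow_le_pow_right₀ one_le_two (by omega))
  have t2 : (32 * Λ + 1) ^ 2 * ((A * η + 1) * Ω + b) ≤ 1 / 4 * 2 ^ J' := by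
    have := ((le_max_right _ _).trans hJ₁.le).trans
      (pow_le_pow_right₀ one_le_two (by omega : J₁ ≤ J'))
    linarith
  have s1 := le_sc (L := L) (p := p₁) (by omega) hJ'
  have s2 : (Λ₁ + 16) * sc L J ≤ p₁ * sc L J :=
    Nat.mul_le_mul_right _ (Nat.le_mul_of_pos_left _ (by omega))
  have s3 : Λ₁ * sc L J ≤ (Λ₁ + 16) * sc L J := Nat.mul_le_mul_right _ (by omega)
  have s4 := le_sc (L := L) (j := 0) (p := J) (by omega) (by omega : 0 + J ≤ J)
  rw [sc_zero] at s4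
  have s5 := sc_mono hL1 hJJ
  have s6 := sc_mono hL1 (by omega : 1 ≤ J)
  have s7 : sc L 1 = 8 * L := by simp [sc]
  have hlo := D.lo
  have hRM : 16 * (q.R + 1) ≤ M := by omega
  have hrad := W.FD.rad_min hL1 p₂
  have hbf' : ∀ (g : Geo), g.OkW → ∀ v : Cor g.M, v.Ok → v.Off g.A → 16 * (q.R + 1) ≤ g.M →
      ∀ j (t : ℝ), 16 * sc L j ≤ g.M → 0 < t → t ≤ hb L j →
      Anch (sc L j) L (g.bf (sc L j) t (g.flowC L q v j)) (b / 2 ^ j / 2 ^ j) := by
    intro g ok v hv hv' h1 j t h2 h3 h4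
    refine anch_mono (hbf L (by omega) q η hq.ok hq.bulk g ok v hv hv' h1 j h2)
      (bf_mono (by have := eight_le_sc hL1 j; omega) h3 h4 (W.Geo.wf_flowC ok hv L q j)) ?_
    rw [div_div, div_eq_mul_one_div, ← div_div]
    exact mul_le_mul_of_nonneg_left (th_pow (by omega) j) hb0
  have okA : (gE M (P * H * B) J).OkW := ⟨dom_isW D, fun k => k.elim⟩
  have okP : (gE M P J').OkW := ⟨Both.isW D.P_ok, fun k => k.elim⟩
  have far := dom_far D hL1
  refine ⟨hRM, ?_, ?_⟩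
  · have EA := (hE (gE M (P * H * B) J) _ ⟨okA, fun k => k.elim, by change _ ≤ M; dsimp only; omega,
      hRM, ⟨dom_ff D hL1 hJJ (s3.trans (s2.trans s1)), fun k => k.elim, fun k => k.elim⟩⟩ (by simp)
      (far.qu (by omega) (by omega) hJJ (by omega) D.bd) hrad).1 u hu (dom_off D hoff) hwt
    obtain ⟨Tp, hTp, -, c', hc1, hc2, hB⟩ := far.qu (J := J') (by omega) (by omega) le_rfl
      (by omega) D.bd
    obtain ⟨ω, hω, hW⟩ := hW M Tp
    have hlo' := hr_lo (L := L) hγ0 hγ1 g1 j1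
    have hpos : ∀ j, 0 < hr L p₁ p₂ J (ρ / L) j := fun j => lt_of_lt_of_le (by linarith) (hlo' j)
    refine flowN_of (h' := hr L p₁ p₂ J (ρ / L)) (ω := ω) (Λ := Λ) inferInstance okA hL1 hu hδ hrad EA
      ha0 hb0 hC hΩ hJJ (hr_early le_rfl) hpos hω (fun j hj hj' => ?_) (fun j hj hj' => ?_)
      (t1 J le_rfl) D.hi ?_ t2
    · change J ≤ j at hj
      have h8 := eight_le_sc hL1 j
      have h9 : L * sc L j ≤ sc L J' := by
        rw [← sc_succ]
        exact sc_mono hL1 hj'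
      obtain ⟨κ', s, n₂, d1, d2, d3, d4, d5⟩ := hB j (by omega) hj'
      have hU := hW _ (sc L j) n₂ c' κ' s ε (by omega)
        (fun p a p' a' h => by have := hTp p a p' a' h; omega) hc2 d1 d2 d3 d4 d5
      have hβ := beta_pos hL1 hδ (hrad.pos hL1 J) J
      by_cases hm : j < J + p₁
      · refine hS _ _ j _ _ _ L ρ okA.sign inferInstance h8 (by change _ ≤ M; omega) (hlo' j)
          (hpos _) ?_ hβ (by linarith) (fun z => RN.shr_triv _
            (Nat.le_mul_of_pos_left _ (by omega)) z ?_) hρ0 hρ3 ?_ _ _ hU.one hU.mono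
          (sumM_mid (by omega) hL1 (by positivity) hρ4 hU.one hU.mono)
        · rw [hr_mid j1 hj hm]
          nlinarith [hpos j]
        · push_cast
          exact mul_le_mul_of_nonneg_right (by nlinarith) (Nat.cast_nonneg _)
        · rw [hr_mid j1 hj hm]
          apply le_of_eq
          field_simp
      · have u1 := le_sc (L := L) (p := p₁) (by omega) (not_lt.1 hm)
        have u2 : p₁ * sc L J = p * ((Λ₁ + 16) * sc L J) + (Λ₁ + 16) * sc L J := by
          rw [hp₁]; ring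
        have u3 : ∀ f, flux (P * H * B) f = -1 → tdist f c ≤ (Λ₁ + 16) * sc L J := fun f hf =>
          (D.cl.near f (dom_fluxB D hf)).trans s3
        have u4 : (Λ₁ + 16) * sc L J ≤ (Λ₁ + 16) * (16 * sc L J) :=
          Nat.mul_le_mul_left _ (by omega)
        have u5 : 16 * sc L J ≤ (Λ₁ + 16) * sc L J := Nat.mul_le_mul_right _ (by omega)
        have u6 : c' * √((sc L j : ℝ) / (L * sc L j : ℕ)) ≤ κ := by
          refine (sq_le_sq₀ (by positivity) hκ0.le).1 ?_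
          have : (0 : ℝ) < sc L j := by positivity
          rw [mul_pow, Real.sq_sqrt (by positivity), Nat.cast_mul, div_mul_cancel_right₀ this.ne',
            ← div_eq_mul_inv, div_le_iff₀ (by linarith)]
          exact hc2.trans (mul_le_mul_of_nonneg_right e2 (by linarith))
        refine hS _ _ j _ _ _ κ κ okA.sign inferInstance h8 (by change _ ≤ M; omega) (hlo' j)
          (hpos _) ?_ hβ hκ0.le (hl M _ B c ((Λ₁ + 16) * sc L J) (16 * sc L J) (sc L j) okA.sign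
            ⟨D.cl.sign, D.cl.sign', D.cl.flat, fun e he => D.cl.out e (by omega),
              fun f hf => (D.cl.near f hf).trans s3, D.cl.sep⟩ (by omega) u5 u4 (by omega)
            (by omega) (by omega) (fun e he => dom_near D e (by omega)) u3 fun z hz =>
              W.R4a.shr_mono (hU.sch z hz) (by positivity) u6) hκ0 (by linarith) ?_ _ _ hU.one
          hU.mono (sumM_late okA.sign h8 (by omega) (by change _ ≤ M; omega)
            (fun z => ⟨{c}, by simp, fun f hf _ => ⟨c, mem_singleton_self c,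
              (u3 f hf).trans (by omega)⟩, fun k => k.elim⟩) hU (by linarith) ?_ (by positivity) e4)
        · rw [hr_late j1 (not_lt.1 hm)]
          linarith [hpos j]
        · rw [hr_late j1 (not_lt.1 hm), mul_comm]
        · have : ε * L ≤ κ ^ 2 * L := mul_le_mul_of_nonneg_right e2 (by linarith)
          have : κ ^ 2 * L ≤ 1 / 576 * L := mul_le_mul_of_nonneg_right (by nlinarith) (by linarith)
          linarith
    · have := sc_mono hL1 hj'
      exact hbf' _ okA u hu (dom_off D hoff) hRM j _ (by change _ ≤ M; omega) (hpos j)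
        ((hr_le hγ0 hγ1 j).trans (hrad.hi j))
    · rw [FM.hr, min_eq_right (by omega : p₂ ≤ J'), min_eq_right (by omega : p₁ ≤ J' - J),
        mul_assoc]
      exact g2.trans (le_mul_of_one_le_left (by positivity) hL2)
  · have EP := (hE (gE M P J') _ ⟨okP, fun k => k.elim, by change _ ≤ M; dsimp only; omega,
      hRM, ⟨fun f hf => absurd hf (dom_nofl D f), fun k => k.elim, fun k => k.elim⟩⟩ (by simp)
      D.bd0 hrad).1 u hu hoff hwt
    refine flowN_of (ω := fun _ _ => 1) (Λ := Λ) inferInstance okP hL1 hu hδ hrad EP ha0 hb0 hC hΩ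
      le_rfl rfl (hrad.pos hL1) (fun _ _ => ⟨le_rfl, hΩ⟩) (fun j hj hj' => absurd hj' (not_lt.2 hj))
      (fun j _ hj' => ?_) (t1 J' hJJ) D.hi ?_ t2
    · have := sc_mono hL1 hj'
      exact hbf' _ okP u hu hoff hRM j _ (by change _ ≤ M; omega) (hrad.pos hL1 j) (hrad.hi j)
    · change T ≤ (L : ℝ) ^ 2 * 2 ^ min J' p₂
      rw [min_eq_right (by omega : p₂ ≤ J')]
      refine g2.trans ((mul_le_of_le_one_right (by positivity)
        (pow_le_one₀ hγ0.le hγ1)).trans (le_mul_of_one_le_left (by positivity) hL2))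

end Vale.Agent.N144.MS
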