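import Vale.Agent.P144U.Rg.Step

/-!
# Steps without sources above the distance of the fluxes
-/

namespace Vale.Agent.P144Z.W.Geo.R8

open Finset Matrix Vale.Agent.P144Z.Geo Vale.Agent.P144Z.R8 Filter Topology

section

variable {g : Geo} {L ℓ : ℕ} {c ε k₀ : ℝ} {ω ω' : g.P → ℝ}

open Classical in
theorem sum_ksC (hA : IsW g.A) (hl : 8 ≤ ℓ) (hm : 24 ≤ L) (hM : 16 * (L * ℓ) ≤ g.M)
    (hS : LCov g 1 ℓ (3 * (L * ℓ))) (hB : BdU g.A L ℓ c ε ω ω') (hc : 0 < c)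
    (hcL : 576 * c ^ 2 ≤ L) (hk : 0 ≤ k₀) {f : Finset g.P → ℝ}
    {D : ℝ} (hf : ∀ X, 0 ≤ f X) (hD : AnchW ℓ L f ω D) (hD0 : 0 ≤ D) (z : g.P) :
    ∑ U ∈ (near (2 * (L * ℓ)) z).filter (fun U => stein U ≤ ℓ ∧ Dfc g ℓ U),
      ksW g L ℓ k₀ U * f U ≤ (169 * k₀ + 10000 * ε) * (D * ω' z) := by
  obtain ⟨Z₀, hZ₀, a1, a2⟩ := hS z
  obtain ⟨κ, Z₁, Z₂, hκ, hκ1, hR, hZ₂, hsum, hcov⟩ := hB.cov z
  have h8 : 24 * ℓ ≤ L * ℓ := Nat.mul_le_mul_right ℓ hm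
  have hL0 : (24 : ℝ) ≤ L := by exact_mod_cast hm
  have hω := zero_le_one.trans (hB.one z)
  set S := (near (2 * (L * ℓ)) z).filter (fun U => stein U ≤ ℓ ∧ Dfc g ℓ U) with hSd
  set P₀ : g.P → Finset g.P → Prop := fun y U => ∃ x ∈ U, tdist x y ≤ 6 * ℓ
  set P₁ : g.P → Finset g.P → Prop := fun y U => ∃ x ∈ U, tdist x y ≤ 8 * ℓ
  have e2 : ∀ y ∈ Z₁, 0 ≤ 576 * (y.2.1 * y.2.2 / L) := fun y hy => by
    have h1 := (hR y hy).1
    have h2 := h1.trans_le (hR y hy).2.1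
    positivity
  have e3 : 0 ≤ 32 * κ ^ 2 := by positivity
  have e4 : 0 ≤ 576 * (c ^ 2 / L) := by positivity
  have key : ∀ U ∈ S, ksW g L ℓ k₀ U ≤ 32 * κ ^ 2 + (∑ y ∈ Z₀, if P₀ y U then k₀ else 0) +
      (∑ y ∈ Z₁, if P₁ y.1 U then 576 * (y.2.1 * y.2.2 / L) else 0) +
      ∑ y ∈ Z₂, if P₁ y.1 U then 576 * (c ^ 2 / L) else 0 := by
    intro U hU
    obtain ⟨hn, hs, hd⟩ := mem_filter.1 hU
    obtain ⟨x', hx', hxz⟩ := mem_near.1 hn
    have m0 : ∀ y ∈ Z₀, 0 ≤ if P₀ y U then k₀ else 0 := fun y _ => by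
      split_ifs
      · exact hk
      · exact le_rfl
    have n0 : ∀ y ∈ Z₁, 0 ≤ if P₁ y.1 U then 576 * (y.2.1 * y.2.2 / L) else 0 := fun y hy => by
      split_ifs
      · exact e2 y hy
      · exact le_rfl
    have o0 : ∀ y ∈ Z₂, 0 ≤ if P₁ y.1 U then 576 * (c ^ 2 / L) else 0 := fun y _ => by
      split_ifs
      · exact e4
      · exact le_rfl
    have m1 := sum_nonneg m0
    have n1 := sum_nonneg n0
    have n2 := sum_nonneg o0
    by_cases h0 : ∃ y ∈ Z₀, P₀ y U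
    · obtain ⟨y, hy, h0⟩ := h0
      have := ksW_le_self (L := L) (ℓ := ℓ) hk U
      have k3 := single_le_sum m0 hy
      rw [if_pos h0] at k3
      linarith
    have hsrc : ¬ ∃ k, (g.src k).y ∈ U := by
      rintro ⟨k, hk⟩
      have b1 := tdist_le_stein hk hx'
      have b2 := tdist_triangle (g.src k).y x' z
      obtain ⟨y, hy, hpc⟩ := a2 k (by omega)
      exact h0 ⟨y, hy, _, hk, by omega⟩
    have h4 : ¬ ∀ x ∈ U, Flat g.A x (2 * stein U + 3 * ℓ) := fun h =>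
      hd.resolve_right hsrc ⟨h, by omega⟩
    simp only [Flat, not_forall] at h4
    obtain ⟨x, hx, p, hp, hfp⟩ := h4
    have b0 : ∀ w ∈ U, tdist p w ≤ 6 * ℓ := fun w hw => by
      have b1 := tdist_le_stein hx hw
      have b2 := tdist_triangle p x w
      omega
    have hp1 : |flux g.A p| ≠ 1 := fun h => by
      have b3 := tdist_triangle p x' z
      have b1 := b0 x' hx'
      obtain ⟨y, hy, hpc⟩ := a1 p (((abs_eq zero_le_one).1 h).resolve_left hfp) (by omega)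
      have b4 := tdist_triangle x p y
      rw [tdist_comm x p] at b4
      exact h0 ⟨y, hy, x, hx, by omega⟩
    have k1 := ksW_le hsrc (adm_ksD (ℓ := ℓ) (m := 8) hA (by omega) (by omega) hcL hc le_rfl hκ hκ1
      hk U)
    rw [ksD, if_neg hsrc] at k1
    by_cases h2 : ∀ z ∈ U, RN.Shr g.A ℓ (L * ℓ) z κ
    · rw [if_pos h2] at k1
      linarith
    rw [if_neg h2] at k1
    have h3 := h2
    push Not at h3
    obtain ⟨w, hw, hw'⟩ := h3
    have b5 := tdist_le_stein hw hx'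
    have b6 := tdist_triangle w x' z
    rcases (hcov w (by omega) ⟨p, b0 w hw, hp1⟩).resolve_left hw' with ⟨y, hy, hwy⟩ | ⟨y, hy, hwy⟩
    · obtain ⟨r1, r2, r3, r4⟩ := hR y hy
      have k2 := ksW_le hsrc (adm_ksD (ℓ := ℓ) (m := 8) hA (by omega) (by omega)
        (le_trans (by have := r1.trans_le r2; gcongr) hcL) r1 r2 hκ hκ1 hk U)
      rw [ksD, if_neg hsrc, if_neg h2, if_pos ⟨y.1, r4, fun v hv => by
        have b7 := tdist_le_stein hv hw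
        have b8 := tdist_triangle v w y.1
        rw [add_mul]
        omega⟩] at k2
      have k3 := single_le_sum n0 hy
      rw [if_pos (show P₁ y.1 U from ⟨w, hw, hwy⟩)] at k3
      linarith
    · have k3 := single_le_sum o0 hy
      rw [if_pos (show P₁ y.1 U from ⟨w, hw, hwy⟩)] at k3
      rw [if_pos fun v hv => hB.sch v ⟨p, (b0 v hv).trans (by omega), hp1⟩, ← sq] at k1
      split_ifs at k1 <;> linarith
  have loc : ∀ (y : g.P) (p : ℕ), p ≤ 8 → ∀ T ⊆ S, (∀ U ∈ T, ∃ x ∈ U, tdist x y ≤ p * ℓ) →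
      ∑ U ∈ T, f U ≤ (2 * p + 1) ^ 2 * (D * ω' z) := fun y p hp T hT hT' =>
    loc_sum' (by omega) (by positivity) hf hD hD0 hω y p T (fun ⟨U, hU⟩ x hx => by
      obtain ⟨hn, hs, -⟩ := mem_filter.1 (hT hU)
      obtain ⟨x', hx', hxz⟩ := mem_near.1 hn
      obtain ⟨v, hv, hvy⟩ := hT' U hU
      have b1 := tdist_le_stein hv hx'
      have b2 := tdist_triangle x y v
      have b3 := tdist_triangle x v x'
      have b4 := tdist_triangle x x' z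
      have b5 := Nat.mul_le_mul_right ℓ hp
      rw [tdist_comm y v] at b2
      exact hB.mono x z (by omega)) hT'
  have s3 := loc_sum' (by omega) (by positivity) hf hD hD0 hω z (2 * L) S
    (fun _ x hx => hB.mono x z (by rw [mul_assoc] at hx; omega)) fun U hU => by
      obtain ⟨x, hx, h⟩ := mem_near.1 (mem_filter.1 hU).1
      exact ⟨x, hx, by rwa [mul_assoc]⟩
  refine (sum_le_sum fun U hU => mul_le_mul_of_nonneg_right (key U hU) (hf U)).trans ?_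
  have hi : ∀ (P : Finset g.P → Prop) [DecidablePred P] (a : ℝ),
      ∑ U ∈ S, (if P U then a else 0) * f U = a * ∑ U ∈ S.filter P, f U := fun P _ a => by
    rw [sum_filter P, mul_sum]
    exact sum_congr rfl fun U _ => by split_ifs <;> simp
  have hE : 0 ≤ D * ω' z := by positivity
  have t0 : ∑ U ∈ S, (∑ y ∈ Z₀, if P₀ y U then k₀ else 0) * f U ≤ 169 * k₀ * (D * ω' z) := by
    simp only [sum_mul]
    rw [sum_comm]
    refine (sum_le_card_nsmul _ _ (169 * k₀ * (D * ω' z)) fun y _ => ?_).trans ?_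
    · rw [hi (P₀ y), mul_comm 169, mul_assoc]
      refine mul_le_mul_of_nonneg_left ((loc y 6 (by omega) _ (filter_subset _ _)
        fun U hU => (mem_filter.1 hU).2).trans (le_of_eq (by norm_num))) hk
    · rw [nsmul_eq_mul]
      exact mul_le_of_le_one_left (by positivity) (by exact_mod_cast hZ₀)
  have t1 : ∑ U ∈ S, (∑ y ∈ Z₁, if P₁ y.1 U then 576 * (y.2.1 * y.2.2 / L) else 0) * f U ≤
      576 * ((∑ y ∈ Z₁, y.2.1 * y.2.2) / L) * (289 * (D * ω' z)) := by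
    simp only [sum_mul]
    rw [sum_comm, sum_div, mul_sum, sum_mul]
    refine sum_le_sum fun y hy => ?_
    rw [hi (P₁ y.1)]
    exact mul_le_mul_of_nonneg_left ((loc y.1 8 le_rfl _ (filter_subset _ _)
      fun U hU => (mem_filter.1 hU).2).trans (le_of_eq (by norm_num))) (e2 y hy)
  have n3 : ∀ y ∈ Z₂, 0 ≤ D * y.2 := fun y hy => le_trans
    (sum_nonneg fun X _ => mul_nonneg (hf X) (Real.exp_pos _).le) ((hD y.1).trans
      (mul_le_mul_of_nonneg_left (hZ₂ y hy _ (by rw [tdist_self]; omega)) hD0))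
  have t2 : ∑ U ∈ S, (∑ y ∈ Z₂, if P₁ y.1 U then 576 * (c ^ 2 / L) else 0) * f U ≤
      576 * (c ^ 2 / L) * (289 * (D * ∑ y ∈ Z₂, y.2)) := by
    simp only [sum_mul]
    rw [sum_comm, mul_sum, mul_sum, mul_sum]
    refine sum_le_sum fun y hy => ?_
    rw [hi (P₁ y.1)]
    refine mul_le_mul_of_nonneg_left ?_ e4
    have h1 := loc_sum' (ω := fun x => D * ω x) (D := 1) (t := D * y.2) (τ := L) (by omega) (by positivity)
      hf (fun x => by rw [one_mul]; exact hD x) zero_le_one (n3 y hy) y.1 8 (S.filter (P₁ y.1))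
      (fun _ x hx => mul_le_mul_of_nonneg_left (hZ₂ y hy x (by omega)) hD0)
      fun U hU => (mem_filter.1 hU).2
    exact h1.trans (le_of_eq (by norm_num))
  simp only [add_mul, sum_add_distrib]
  rw [← mul_sum]
  have t3 := mul_le_mul_of_nonneg_left s3 e3
  have u3 : (2 * ((2 * L : ℕ) : ℝ) + 1) ^ 2 ≤ 25 * L ^ 2 := by push_cast; nlinarith
  have v3 := mul_le_mul_of_nonneg_right u3 (by positivity : 0 ≤ 32 * κ ^ 2 * (D * ω' z))
  have w1 : 0 ≤ (∑ y ∈ Z₁, y.2.1 * y.2.2) / L * (D * ω' z) := by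
    have := sum_nonneg fun y (hy : y ∈ Z₁) => mul_nonneg ((hR y hy).1.le.trans (hR y hy).2.1)
      (hR y hy).1.le
    positivity
  have w2 : 0 ≤ c ^ 2 / L * (D * ∑ y ∈ Z₂, y.2) := by
    rw [mul_sum]
    exact mul_nonneg (by positivity) (sum_nonneg n3)
  have w3 : 0 ≤ (L : ℝ) ^ 2 * κ ^ 2 * (D * ω' z) := by positivity
  have e := mul_le_mul_of_nonneg_left hsum hD0
  have e' : D * (((L : ℝ) ^ 2 * κ ^ 2 + 81 * (∑ y ∈ Z₁, y.2.1 * y.2.2) / L) * ω' z +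
      81 * c ^ 2 / L * ∑ y ∈ Z₂, y.2) = (L : ℝ) ^ 2 * κ ^ 2 * (D * ω' z) +
      81 * ((∑ y ∈ Z₁, y.2.1 * y.2.2) / L * (D * ω' z)) +
      81 * (c ^ 2 / L * (D * ∑ y ∈ Z₂, y.2)) := by ring
  rw [e'] at e
  linarith

end

open Classical in
/-- The weighted sum of the contraction factors is small. -/
def SumM (g : Geo) (L ℓ : ℕ) (k₀ : ℝ) (ω ω' : g.P → ℝ) : Prop :=
  ∀ (f : Finset g.P → ℝ) (D : ℝ), (∀ X, 0 ≤ f X) → AnchW ℓ L f ω D → 0 ≤ D → ∀ z,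
    ∑ U ∈ (near (2 * (L * ℓ)) z).filter (fun U => stein U ≤ ℓ ∧ Dfc g ℓ U),
      ksW g L ℓ k₀ U * f U ≤ 1 / (32 * Real.exp 6) * (D * ω' z)

theorem sumM_mid {g : Geo} {L ℓ : ℕ} {k₀ : ℝ} {ω ω' : g.P → ℝ} (hl : 1 ≤ ℓ) (hL : 1 ≤ L)
    (hk : 0 ≤ k₀) (hk1 : 25 * (L : ℝ) ^ 2 * k₀ ≤ 1 / (32 * Real.exp 6)) (h1 : ∀ z, 1 ≤ ω' z)
    (hm : ∀ x z, tdist x z ≤ 4 * (L * ℓ) → ω x ≤ ω' z) : SumM g L ℓ k₀ ω ω' := by
  classical
  intro f D hf hD hD0 z
  have hω := zero_le_one.trans (h1 z)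
  have hL' : (1 : ℝ) ≤ L := by exact_mod_cast hL
  have s3 := loc_sum' hl (by positivity) hf hD hD0 hω z (2 * L)
    ((near (2 * (L * ℓ)) z).filter (fun U => stein U ≤ ℓ ∧ Dfc g ℓ U))
    (fun _ x hx => hm x z (by rw [mul_assoc] at hx; omega)) fun U hU => by
      obtain ⟨x, hx, h⟩ := mem_near.1 (mem_filter.1 hU).1
      exact ⟨x, hx, by rwa [mul_assoc]⟩
  refine (sum_le_sum fun U _ => mul_le_mul_of_nonneg_right (ksW_le_self hk U) (hf U)).trans ?_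
  rw [← mul_sum]
  refine (mul_le_mul_of_nonneg_left s3 hk).trans ?_
  rw [← mul_assoc]
  refine mul_le_mul_of_nonneg_right (le_trans ?_ hk1) (by positivity)
  have u3 : (2 * ((2 * L : ℕ) : ℝ) + 1) ^ 2 ≤ 25 * L ^ 2 := by push_cast; nlinarith
  nlinarith

theorem sumM_late {g : Geo} {L ℓ : ℕ} {c ε k₀ : ℝ} {ω ω' : g.P → ℝ} (hA : IsW g.A) (hl : 8 ≤ ℓ)
    (hm : 24 ≤ L) (hM : 16 * (L * ℓ) ≤ g.M) (hS : LCov g 1 ℓ (3 * (L * ℓ)))
    (hB : BdU g.A L ℓ c ε ω ω') (hc : 0 < c) (hcL : 576 * c ^ 2 ≤ L) (hk : 0 ≤ k₀)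
    (h1 : 169 * k₀ + 10000 * ε ≤ 1 / (32 * Real.exp 6)) : SumM g L ℓ k₀ ω ω' :=
  fun _ _ hf hD hD0 z => (sum_ksC hA hl hm hM hS hB hc hcL hk hf hD hD0 z).trans
    (mul_le_mul_of_nonneg_right h1 (mul_nonneg hD0 (zero_le_one.trans (hB.one z))))

/-- The hypotheses of the abstract step for a uniform change of scale. -/
theorem hypMS : ∃ C : ℝ, 1 ≤ C ∧ ∀ (g : Geo) (L ℓ j : ℕ) (h h' β κ ρ : ℝ), IsW g.A →
    IsEmpty g.K → 6 ≤ L → 8 ≤ ℓ → 16 * (L * ℓ) ≤ g.M → 0 < h → 0 < h' → h' ≤ 2 * h → 0 < β →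
    0 ≤ κ → (∀ z, RN.Shr g.A ℓ (L * ℓ) z κ) → 0 < ρ → 4 * ρ ≤ 1 → h' * κ ≤ ρ * h →
    ∀ s : g.St, g.Wf s → (∀ U, ∀ F ∈ g.sub U, g.pn ℓ (h / 2) β U
      (evG (g.exM (covP (Dm g.A) ℓ (L * ℓ))) F) ≤ g.pn ℓ h β U F) →
    Hyp g L ℓ j h β h' β 1 (ksW g L ℓ (8 * ρ ^ 2)) (16 * C) s (g.srcSt 0) (g.srcSt 0) := by
  obtain ⟨Cx, hCx, hX⟩ := ext_le
  refine ⟨Cx, hCx, fun g L ℓ j h h' β κ ρ hA hK hL hl hM hh hh' hh2 hβ hκ hs hρ hρ4 hρκ s ws hE =>
    ?_⟩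
  have a : Ad g ℓ h β := ⟨hA, by omega, hh, hβ⟩
  have hl' : ℓ ≤ L * ℓ := Nat.le_mul_of_pos_left ℓ (by omega)
  have a' : Ad g (L * ℓ) h' β := ⟨hA, by omega, hh', hβ⟩
  have hJ : ∀ k, (g.src k).on = true → g.J ≤ j := fun k => isEmptyElim k
  have h2 : ∀ U, ∀ F ∈ g.sub U, _ := fun U F hF =>
    pn_sch hA a.l a.half.h hβ hF hκ hl' hh' (fun z _ => hs z) (ρ := 2 * ρ) (by linarith)
      (by linarith)
  have hk0 : 0 ≤ 8 * ρ ^ 2 := by positivity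
  have h3 : ∀ U, ∀ F ∈ g.sub U, g.noF F = 0 →
      g.pn (L * ℓ) h' β U F ≤ 8 * ρ ^ 2 * g.pn ℓ (h / 2) β U F := fun U F hF h0 =>
    ((h2 U F hF).2 (by linarith) h0).trans (le_of_eq (by ring))
  exact
    { a := a, a' := a', hL := hL, hl := hl, hM := hM, hs := ws, hs' := (wf_srcSt _).1
      hf := (wf_srcSt _).2
      tK := fun X => by rw [step_zero]
      tv := fun _ => rfl
      tz := fun k => isEmptyElim k
      kc0 := zero_le_one
      ks0 := fun U => (adm_ksW hk0 U).1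
      ke0 := by positivity
      hE := hE
      T1 := fun U F hF => ((h2 U F hF).1 (by linarith)).trans (by
        rw [one_mul]
        exact le_mul_of_one_le_left (pn_nonneg _ _) (Real.one_le_exp (by positivity)))
      T2 := fun U _ _ F hF h0 _ => by
        rw [xb_of_off hJ, sub_zero]
        exact (a'.mono (G.subset_plus U) hF).trans ((adm_ksW hk0 U).2 _ h' β a.half.h hh'
          (by linarith) hβ F hF h0 (h3 U F hF h0))
      T3 := fun X _ _ => by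
        have hF := dp_mem (ℓ := ℓ) (sub_mem (ws.car_mem X) ((wf_srcSt (g := g) 0).1.car_mem X)) X
        have h0 : g.noF (g.dp ℓ X (s.car X - (g.srcSt 0).car X)) = 0 :=
          noF_dp (by rw [map_sub, ws.noF_car, (wf_srcSt (g := g) 0).1.noF_car, sub_self])
        exact (adm_ksW hk0 X).2 _ h' β hh hh' (by linarith) hβ _ hF h0
          ((h3 X _ hF h0).trans (mul_le_mul_of_nonneg_left (a.half_le hF) hk0))
      T4 := fun U hU x hx F hF => (hX g L ℓ h β h' β a a' hL hl hM hh2 U hU x hx F hF).1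
      T5 := fun U F _ => by
        rw [xb_of_off hJ, a'.zero]
        exact mul_nonneg (by positivity) (pn_nonneg _ _) }

/-- The weighted step without sources. -/
def StepM (g : Geo) (L ℓ j : ℕ) (h h' β C : ℝ) (ω ω' : g.P → ℝ) : Prop :=
  ∀ s : g.St, g.Wf s → ∀ D E b : ℝ, 0 ≤ D → C * E ≤ 1 → C * b ≤ 1 →
    AnchW ℓ L (g.df ℓ h β s (g.srcSt 0)) ω D → Anch ℓ L (g.df ℓ h β s (g.srcSt 0)) E →
    Anch ℓ L (g.bf ℓ h s) b →
      g.ExpId (covP (Dm g.A) ℓ (L * ℓ)) s ∧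
      AnchW (L * ℓ) L (g.df (L * ℓ) h' β (g.step j ℓ (L * ℓ) 0 s) (g.srcSt 0)) ω'
        (D / 4 + C * (b + E ^ 2)) ∧
      Anch (L * ℓ) (2 * L) (fun U => g.pn ℓ (h / 2) β U (g.intg ℓ (L * ℓ) s U)) (C * (E + b))

set_option maxHeartbeats 400000 in
theorem stepMS : ∃ L₀ : ℕ, ∀ L ≥ L₀, ∃ C : ℝ, 1 ≤ C ∧ ∀ (g : Geo) (ℓ j : ℕ) (h h' β κ ρ : ℝ),
    IsW g.A → IsEmpty g.K → 8 ≤ ℓ → 16 * (L * ℓ) ≤ g.M → (L : ℝ) ^ 2 ≤ h → 0 < h' → h' ≤ 2 * h →
    0 < β → 0 ≤ κ → (∀ z, RN.Shr g.A ℓ (L * ℓ) z κ) → 0 < ρ → 4 * ρ ≤ 1 → h' * κ ≤ ρ * h →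
    ∀ ω ω' : g.P → ℝ, (∀ z, 1 ≤ ω' z) → (∀ x z, tdist x z ≤ 4 * (L * ℓ) → ω x ≤ ω' z) →
    SumM g L ℓ (8 * ρ ^ 2) ω ω' → StepM g L ℓ j h h' β C ω ω' := by
  classical
  obtain ⟨L₁, hP⟩ := cl_P
  obtain ⟨Cx, hCx, hH⟩ := hypMS
  obtain ⟨L₂, hL₂⟩ := eventually_atTop.1 (ev_exp 800)
  refine ⟨max (max L₁ L₂) 6, fun L hL => ?_⟩
  obtain ⟨Cc, hCc, hP⟩ := hP L (le_of_max_le_left (le_of_max_le_left hL))
  have hE1 := hL₂ L (le_of_max_le_right (le_of_max_le_left hL))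
  have hL6 : 6 ≤ L := le_of_max_le_right hL
  have hL6' : (6 : ℝ) ≤ L := by exact_mod_cast hL6
  set A := 1200 * Real.exp 6 * (1 + 3 * (16 * Cx)) with hA
  have hA0 : 0 ≤ A := by positivity
  have h1 : 0 ≤ A * Cc := by positivity
  have h2 : 0 ≤ A * L ^ 2 := by positivity
  refine ⟨2 * (A * Cc) + A * L ^ 2 + 2 * Cc, by linarith, fun g ℓ j h h' β κ ρ hA' hK hl hM hh hh'
    hh2 hβ hκ hs hρ hρ4 hρκ ω ω' hω1 hωm hS s ws D E b hD0 hE hb aD aE ab => ?_⟩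
  have hh0 : 0 < h := by nlinarith
  have a : Ad g ℓ h β := ⟨hA', by omega, hh0, hβ⟩
  have hE0 := G.anch_nonneg (df_nonneg _ _) aE
  have hb0 := G.anch_nonneg (bf_nonneg s) ab
  obtain ⟨hE', hP⟩ := hP g ℓ h β a hl hh
  have e1 := mul_nonneg (add_nonneg (mul_nonneg zero_le_two h1) h2) hE0
  have e2 := mul_nonneg (add_nonneg (mul_nonneg zero_le_two h1) h2) hb0
  have e3 : Cc * (E + b + 0) ≤ 1 := by linarith
  have hb1 : b ≤ 1 := by nlinarith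
  obtain ⟨c1, c2, c3⟩ := hP s _ ws (wf_srcSt 0).1 (wf_srcSt 0).2 E b 0 e3 aE ab (fun z => by
    simp only [Geo.df, sub_self, dp_zero, a.zero, add_zero, zero_mul, sum_const_zero, le_refl])
  have H := hH g L ℓ j h h' β κ ρ hA' hK hL6 hl hM hh0 hh' hh2 hβ hκ hs hρ hρ4 hρκ s ws hE'
  refine ⟨c1, fun z => ?_, anch_mono c3 (fun U => ?_)
    (mul_le_mul_of_nonneg_right (by linarith) (by linarith))⟩
  · have hω := hω1 z
    have hDω : 0 ≤ D * ω' z := by positivity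
    refine (H.coreU z (hS _ D (df_nonneg _ _) aD hD0 z)
      ((loc_sum (by omega) (df_nonneg _ _) aD hD0 (by linarith) z (2 * L)
        (fun x hx => hωm x z (by rw [mul_assoc] at hx; omega)) _ fun U hU => by
          obtain ⟨x, hx, h⟩ := mem_near.1 hU
          exact ⟨x, hx, by rwa [mul_assoc]⟩).trans (mul_le_mul_of_nonneg_right
            (by push_cast; nlinarith) hDω)) ab c2).trans ?_
    have f1 : 4 * Real.exp 6 * (1 / (32 * Real.exp 6)) = 1 / 8 := by field_simp; norm_num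
    have f2 : 800 * 1 * (L : ℝ) ^ 2 * Real.exp (2 - L) ≤ 800 * (L : ℝ) ^ 3 * Real.exp (2 - L) :=
      mul_le_mul_of_nonneg_right (by nlinarith) (Real.exp_pos _).le
    have f3 : 4 * Real.exp 6 * (1 / (32 * Real.exp 6)) + 800 * 1 * (L : ℝ) ^ 2 * Real.exp (2 - L) ≤
        1 / 4 := by linarith
    have f4 := mul_le_mul_of_nonneg_right f3 hDω
    have f5 : (E + b + 0) * (E + b) ≤ 2 * (b + E ^ 2) := by nlinarith [sq_nonneg (E - b)]
    have f6 := mul_le_mul_of_nonneg_left f5 h1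
    have f7 := mul_nonneg h2 (sq_nonneg E)
    have f8 : 0 ≤ Cc * (b + E ^ 2) := by positivity
    have f9 : A * (L ^ 2 * b + Cc * (E + b + 0) * (E + b)) ≤
        (2 * (A * Cc) + A * L ^ 2 + 2 * Cc) * (b + E ^ 2) := by linarith
    have f10 := le_mul_of_one_le_right (le_trans (by positivity) f9) hω
    linarith
  · rw [Geo.intg, Geo.intg, Cl_zero, sub_zero]

end Vale.Agent.P144Z.W.Geo.R8
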